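import Vale.Agent.P165.Pr

/-!
Product Bernoulli weights on a finite coordinate set, one parameter for each coordinate:
expectations, independence and the Harris inequality.
-/

open Finset

namespace Vale.Agent.P151.Fin

variable {α : Type*} [DecidableEq α]

/-- The indicator of a proposition. -/
noncomputable def ind (P : Prop) : ℝ := open scoped Classical in if P then 1 else 0

/-- Weight of the open set `S` inside `U`. -/
def wt (p : α → ℝ) (U S : Finset α) : ℝ := (∏ e ∈ S, p e) * ∏ e ∈ U \ S, (1 - p e)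

/-- Expectation of `f` of the open set. -/
def ev (p : α → ℝ) (U : Finset α) (f : Finset α → ℝ) : ℝ := ∑ S ∈ U.powerset, wt p U S * f S

/-- Probability of an event. -/
noncomputable def pr (p : α → ℝ) (U : Finset α) (Q : Finset α → Prop) : ℝ :=
  ev p U fun S => ind (Q S)

variable {p : α → ℝ} {U : Finset α}

omit [DecidableEq α] in
lemma ind_true {P : Prop} (h : P) : ind P = 1 := by simp [ind, h]

omit [DecidableEq α] in
lemma ind_false {P : Prop} (h : ¬ P) : ind P = 0 := by simp [ind, h]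

omit [DecidableEq α] in
lemma ind_nonneg (P : Prop) : 0 ≤ ind P := by
  by_cases h : P <;> simp [ind, h]

omit [DecidableEq α] in
lemma ind_le_one (P : Prop) : ind P ≤ 1 := by
  by_cases h : P <;> simp [ind, h]

omit [DecidableEq α] in
lemma ind_mono {P Q : Prop} (h : P → Q) : ind P ≤ ind Q := by
  by_cases hP : P
  · rw [ind_true hP, ind_true (h hP)]
  · rw [ind_false hP]; exact ind_nonneg Q

omit [DecidableEq α] in
lemma ind_and (P Q : Prop) : ind (P ∧ Q) = ind P * ind Q := by
  by_cases hP : P <;> by_cases hQ : Q <;> simp [ind, hP, hQ]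

omit [DecidableEq α] in
lemma ind_congr {P Q : Prop} (h : P ↔ Q) : ind P = ind Q := by rw [propext h]

lemma wt_nonneg (h0 : ∀ e, 0 ≤ p e) (h1 : ∀ e, p e ≤ 1) (U S : Finset α) : 0 ≤ wt p U S :=
  mul_nonneg (prod_nonneg fun e _ => h0 e) (prod_nonneg fun e _ => sub_nonneg.2 (h1 e))

lemma ev_congr {f g : Finset α → ℝ} (h : ∀ S, S ⊆ U → f S = g S) : ev p U f = ev p U g :=
  sum_congr rfl fun S hS => by rw [h S (mem_powerset.1 hS)]

lemma ev_mono (h0 : ∀ e, 0 ≤ p e) (h1 : ∀ e, p e ≤ 1) {f g : Finset α → ℝ}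
    (h : ∀ S, S ⊆ U → f S ≤ g S) : ev p U f ≤ ev p U g :=
  sum_le_sum fun S hS => mul_le_mul_of_nonneg_left (h S (mem_powerset.1 hS)) (wt_nonneg h0 h1 U S)

lemma ev_nonneg (h0 : ∀ e, 0 ≤ p e) (h1 : ∀ e, p e ≤ 1) {f : Finset α → ℝ}
    (h : ∀ S, S ⊆ U → 0 ≤ f S) : 0 ≤ ev p U f :=
  sum_nonneg fun S hS => mul_nonneg (wt_nonneg h0 h1 U S) (h S (mem_powerset.1 hS))

lemma ev_add (f g : Finset α → ℝ) : ev p U (fun S => f S + g S) = ev p U f + ev p U g := by
  simp only [ev, mul_add, sum_add_distrib]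

lemma ev_sub (f g : Finset α → ℝ) : ev p U (fun S => f S - g S) = ev p U f - ev p U g := by
  simp only [ev, mul_sub, sum_sub_distrib]

lemma ev_neg (f : Finset α → ℝ) : ev p U (fun S => -f S) = -ev p U f := by
  simp only [ev, mul_neg, sum_neg_distrib]

lemma ev_mul_left (c : ℝ) (f : Finset α → ℝ) : ev p U (fun S => c * f S) = c * ev p U f := by
  simp only [ev, mul_sum]
  exact sum_congr rfl fun S _ => by ring

lemma ev_sum {ι : Type*} (s : Finset ι) (f : ι → Finset α → ℝ) :
    ev p U (fun S => ∑ i ∈ s, f i S) = ∑ i ∈ s, ev p U (f i) := by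
  simp only [ev, mul_sum]
  exact sum_comm

lemma ev_empty (f : Finset α → ℝ) : ev p ∅ f = f ∅ := by
  simp [ev, wt]

lemma ev_insert {a : α} (ha : a ∉ U) (f : Finset α → ℝ) :
    ev p (insert a U) f = p a * ev p U (fun S => f (insert a S)) + (1 - p a) * ev p U f := by
  simp only [ev]
  rw [sum_powerset_insert ha, mul_sum, mul_sum, add_comm]
  congr 1 <;> refine sum_congr rfl fun S hS => ?_ <;> rw [mem_powerset] at hS <;>
    have haS : a ∉ S := fun h => ha (hS h)
  · rw [wt, wt, prod_insert haS, insert_sdiff_insert, sdiff_insert_of_notMem ha]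
    ring
  · rw [wt, wt, insert_sdiff_of_notMem _ haS, prod_insert (fun h => ha (mem_sdiff.1 h).1)]
    ring

lemma ev_const (c : ℝ) : ev p U (fun _ => c) = c := by
  induction U using Finset.induction_on with
  | empty => rw [ev_empty]
  | insert a U ha ih => rw [ev_insert ha, ih]; ring

/-- Independence over two disjoint coordinate sets. -/
lemma ev_split {U₁ U₂ : Finset α} (hd : Disjoint U₁ U₂) (f : Finset α → ℝ) :
    ev p (U₁ ∪ U₂) f = ev p U₁ fun S₁ => ev p U₂ fun S₂ => f (S₁ ∪ S₂) := by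
  induction U₁ using Finset.induction_on generalizing f with
  | empty => simp [ev_empty]
  | insert a U₁ ha ih =>
    rw [disjoint_insert_left] at hd
    have ha' : a ∉ U₁ ∪ U₂ := by simp [ha, hd.1]
    rw [insert_union, ev_insert ha', ev_insert ha, ih hd.2, ih hd.2]
    simp only [insert_union]

/-- A function of a subset of the coordinates. -/
lemma ev_marginal {U₁ : Finset α} (h : U₁ ⊆ U) (f : Finset α → ℝ) :
    ev p U (fun S => f (S ∩ U₁)) = ev p U₁ f := by
  have := ev_split (p := p) (disjoint_sdiff (s := U₁) (t := U)) fun S => f (S ∩ U₁)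
  rw [union_sdiff_of_subset h] at this
  rw [this]
  refine ev_congr fun S₁ hS₁ => (ev_congr fun S₂ hS₂ => ?_).trans (ev_const _)
  congr 1
  ext x
  simp only [mem_inter, mem_union]
  exact ⟨fun hx => hx.1.elim id fun h2 => absurd hx.2 (mem_sdiff.1 (hS₂ h2)).2,
    fun hx => ⟨.inl hx, hS₁ hx⟩⟩

/-- An event of probability zero carries no expectation. -/
lemma ev_eq_zero (h0 : ∀ e, 0 ≤ p e) (h1 : ∀ e, p e ≤ 1) {Q : Finset α → Prop}
    (h : pr p U Q = 0) (f : Finset α → ℝ) : ev p U (fun S => ind (Q S) * f S) = 0 := by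
  have h' := (sum_eq_zero_iff_of_nonneg
    (fun S _ => mul_nonneg (wt_nonneg h0 h1 U S) (ind_nonneg (Q S)))).1 h
  exact sum_eq_zero fun S hS => by rw [← mul_assoc, h' S hS, zero_mul]

lemma pr_nonneg (h0 : ∀ e, 0 ≤ p e) (h1 : ∀ e, p e ≤ 1) (Q : Finset α → Prop) : 0 ≤ pr p U Q :=
  ev_nonneg h0 h1 fun _ _ => ind_nonneg _

lemma pr_mono (h0 : ∀ e, 0 ≤ p e) (h1 : ∀ e, p e ≤ 1) {Q R : Finset α → Prop}
    (h : ∀ S, S ⊆ U → Q S → R S) : pr p U Q ≤ pr p U R :=
  ev_mono h0 h1 fun S hS => ind_mono (h S hS)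

lemma pr_congr {Q R : Finset α → Prop} (h : ∀ S, S ⊆ U → (Q S ↔ R S)) : pr p U Q = pr p U R :=
  ev_congr fun S hS => ind_congr (h S hS)

lemma pr_le_one (h0 : ∀ e, 0 ≤ p e) (h1 : ∀ e, p e ≤ 1) (Q : Finset α → Prop) : pr p U Q ≤ 1 :=
  (ev_mono h0 h1 fun S _ => ind_le_one (Q S)).trans_eq (ev_const 1)

lemma pr_compl (Q : Finset α → Prop) : pr p U Q + pr p U (fun S => ¬ Q S) = 1 := by
  rw [pr, pr, ← ev_add]
  refine (ev_congr fun S _ => ?_).trans (ev_const 1)
  by_cases h : Q S <;> simp [ind, h]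

lemma pr_or_and (P Q : Finset α → Prop) :
    pr p U (fun S => P S ∨ Q S) + pr p U (fun S => P S ∧ Q S) = pr p U P + pr p U Q := by
  simp only [pr, ← ev_add]
  refine ev_congr fun S _ => ?_
  by_cases hP : P S <;> by_cases hQ : Q S <;> simp [ind, hP, hQ]

/-- With one parameter this is the uniform product weight. -/
lemma pr_eq_uniform (q : ℝ) (Q : Finset α → Prop) :
    pr (fun _ => q) U Q = P165.pr q U Q := by
  classical
  rw [pr, ev, P165.pr, sum_filter]
  refine sum_congr rfl fun S _ => ?_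
  simp only [wt, P165.wt, prod_const, ind]
  split_ifs <;> simp

/-- The Harris inequality for monotone functions. -/
theorem ev_mul_ge (h0 : ∀ e, 0 ≤ p e) (h1 : ∀ e, p e ≤ 1) (U : Finset α)
    {f g : Finset α → ℝ} (hf : Monotone f) (hg : Monotone g) :
    ev p U f * ev p U g ≤ ev p U fun S => f S * g S := by
  induction U using Finset.induction_on generalizing f g with
  | empty => simp [ev_empty]
  | insert a U ha ih =>
    rw [ev_insert ha, ev_insert ha, ev_insert ha]
    have mf : Monotone fun S => f (insert a S) := fun S T h => hf (insert_subset_insert a h)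
    have mg : Monotone fun S => g (insert a S) := fun S T h => hg (insert_subset_insert a h)
    have i0 := mul_le_mul_of_nonneg_left (ih hf hg) (sub_nonneg.2 (h1 a))
    have i1 := mul_le_mul_of_nonneg_left (ih mf mg) (h0 a)
    have da : ev p U f ≤ ev p U fun S => f (insert a S) :=
      ev_mono h0 h1 fun S _ => hf (subset_insert a S)
    have db : ev p U g ≤ ev p U fun S => g (insert a S) :=
      ev_mono h0 h1 fun S _ => hg (subset_insert a S)
    have := mul_nonneg (mul_nonneg (h0 a) (sub_nonneg.2 (h1 a)))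
      (mul_nonneg (sub_nonneg.2 da) (sub_nonneg.2 db))
    linarith

/-- An increasing and a decreasing function are negatively correlated. -/
theorem ev_mul_le (h0 : ∀ e, 0 ≤ p e) (h1 : ∀ e, p e ≤ 1) (U : Finset α)
    {f g : Finset α → ℝ} (hf : Monotone f) (hg : Antitone g) :
    ev p U (fun S => f S * g S) ≤ ev p U f * ev p U g := by
  have := ev_mul_ge h0 h1 U hf (g := fun S => -g S) (fun S T h => neg_le_neg (hg h))
  simp only [ev_neg, mul_neg] at this
  linarith

/-- Increasing events are positively correlated. -/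
theorem pr_and_ge (h0 : ∀ e, 0 ≤ p e) (h1 : ∀ e, p e ≤ 1) (U : Finset α)
    {A B : Finset α → Prop} (hA : ∀ S T, S ⊆ T → A S → A T) (hB : ∀ S T, S ⊆ T → B S → B T) :
    pr p U A * pr p U B ≤ pr p U fun S => A S ∧ B S :=
  (ev_mul_ge h0 h1 U (fun S T h => ind_mono (hA S T h)) fun S T h => ind_mono (hB S T h)).trans_eq
    (ev_congr fun _ _ => (ind_and _ _).symm)

end Vale.Agent.P151.Fin
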