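import Vale.Agent.P151.FiniteBasic
import Vale.Agent.P165.Cluster

/-!
Exploration of a cluster in a finite edge set: given the cluster, the edges away from it are
independent with their original weights.
-/

open Finset

namespace Vale.Agent.P151.Fin

open P165 (cl subset_cl cl_mono cl_step cl_subset cl_trans)

variable {W : Type*}

/-- The edges with an endpoint in `V`. -/
noncomputable def near (V : Set W) (ω : Finset (Sym2 W)) : Finset (Sym2 W) :=
  open scoped Classical in ω.filter fun e => ∃ v ∈ e, v ∈ V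

/-- The edges with no endpoint in `V`. -/
noncomputable def away (V : Set W) (ω : Finset (Sym2 W)) : Finset (Sym2 W) :=
  open scoped Classical in ω.filter fun e => ∀ v ∈ e, v ∉ V

/-- The open edges of the clusters of `S`. -/
noncomputable def clu (S : Set W) (ω : Finset (Sym2 W)) : Finset (Sym2 W) := near (cl S ω) ω

/-- No vertex of `X` is reached from `S`. -/
def Sep (S X : Set W) (ω : Finset (Sym2 W)) : Prop := ∀ v ∈ X, v ∉ cl S ω

variable {V V' S S' T X : Set W} {ω ω' K : Finset (Sym2 W)} {e : Sym2 W}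

lemma mem_near : e ∈ near V ω ↔ e ∈ ω ∧ ∃ v ∈ e, v ∈ V := by simp [near]

lemma mem_away : e ∈ away V ω ↔ e ∈ ω ∧ ∀ v ∈ e, v ∉ V := by simp [away]

lemma near_subset (V : Set W) (ω : Finset (Sym2 W)) : near V ω ⊆ ω := fun _ h => (mem_near.1 h).1

lemma away_subset (V : Set W) (ω : Finset (Sym2 W)) : away V ω ⊆ ω := fun _ h => (mem_away.1 h).1

lemma clu_subset (S : Set W) (ω : Finset (Sym2 W)) : clu S ω ⊆ ω := near_subset _ _

lemma near_mono (hV : V ⊆ V') (h : ω ⊆ ω') : near V ω ⊆ near V' ω' := fun e he => by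
  obtain ⟨he, v, hv, hvV⟩ := mem_near.1 he
  exact mem_near.2 ⟨h he, v, hv, hV hvV⟩

lemma away_mono (hV : V' ⊆ V) (h : ω ⊆ ω') : away V ω ⊆ away V' ω' := fun e he => by
  obtain ⟨he, hv⟩ := mem_away.1 he
  exact mem_away.2 ⟨h he, fun v hve hv' => hv v hve (hV hv')⟩

lemma clu_mono (hS : S ⊆ S') (h : ω ⊆ ω') : clu S ω ⊆ clu S' ω' := near_mono (cl_mono hS h) h

lemma cl_edge (he : e ∈ ω) {u v : W} (hu : u ∈ e) (hv : v ∈ e) (huc : u ∈ cl S ω) :
    v ∈ cl S ω := by
  induction e using Sym2.ind with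
  | h a b =>
    rw [Sym2.mem_iff] at hu hv
    rcases hu with rfl | rfl <;> rcases hv with rfl | rfl
    · exact huc
    · exact cl_step huc he
    · exact cl_step huc (Sym2.eq_swap ▸ he)
    · exact huc

lemma cl_union (S T : Set W) (ω : Finset (Sym2 W)) : cl (S ∪ T) ω = cl S ω ∪ cl T ω := by
  refine subset_antisymm ?_
    (Set.union_subset (cl_mono Set.subset_union_left subset_rfl)
      (cl_mono Set.subset_union_right subset_rfl))
  rintro v ⟨u, hu | hu, h⟩
  · exact .inl ⟨u, hu, h⟩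
  · exact .inr ⟨u, hu, h⟩

lemma cl_clu (S : Set W) (ω : Finset (Sym2 W)) : cl S (clu S ω) = cl S ω :=
  subset_antisymm (cl_mono subset_rfl (clu_subset S ω)) <| cl_subset (subset_cl _ _)
    fun y z hy h => cl_step hy <| mem_near.2
      ⟨h, y, Sym2.mem_mk_left y z, cl_mono subset_rfl (clu_subset S ω) hy⟩

lemma clu_clu (S : Set W) (ω : Finset (Sym2 W)) : clu S (clu S ω) = clu S ω := by
  refine subset_antisymm (clu_subset _ _) fun e he => mem_near.2 ⟨he, ?_⟩
  rw [cl_clu]
  exact (mem_near.1 he).2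

lemma clu_eq_iff (S : Set W) (ω K : Finset (Sym2 W)) : clu S ω = K ↔ near (cl S K) ω = K := by
  refine ⟨fun h => ?_, fun h => ?_⟩
  · subst h
    rw [cl_clu]
    rfl
  · have hK : K ⊆ ω := h ▸ near_subset _ _
    have hc : cl S ω = cl S K := subset_antisymm (cl_subset (subset_cl _ _) fun y z hy hyz =>
      cl_step hy (h ▸ mem_near.2 ⟨hyz, y, Sym2.mem_mk_left y z, hy⟩)) (cl_mono subset_rfl hK)
    rw [clu, hc, h]

lemma sep_mono (hS : S' ⊆ S) (hX : X ⊆ V) (h : ω' ⊆ ω) (hs : Sep S V ω) : Sep S' X ω' :=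
  fun v hv hc => hs v (hX hv) (cl_mono hS h hc)

lemma sep_clu (S X : Set W) (ω : Finset (Sym2 W)) : Sep S X (clu S ω) ↔ Sep S X ω := by
  simp only [Sep, cl_clu]

/-- Clusters of separated seed sets are disjoint. -/
lemma not_mem_cl_of_sep (h : Sep S T ω) {v : W} (hv : v ∈ cl T ω) : v ∉ cl S ω := by
  rintro ⟨s, hs, hsv⟩
  obtain ⟨t, ht, htv⟩ := hv
  exact h t ht ⟨s, hs, hsv.trans htv.symm⟩

lemma cl_away (h : Sep S T ω) : cl T (away (cl S ω) ω) = cl T ω := by
  refine subset_antisymm (cl_mono subset_rfl (away_subset _ _)) (cl_subset (subset_cl _ _) ?_)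
  intro y z hy hyz
  refine cl_step hy (mem_away.2 ⟨hyz, fun v hv => not_mem_cl_of_sep h ?_⟩)
  exact cl_edge hyz (Sym2.mem_mk_left y z) hv (cl_mono subset_rfl (away_subset _ _) hy)

lemma clu_away (h : Sep S T ω) : clu T (away (cl S ω) ω) = clu T ω := by
  ext e
  rw [clu, clu, cl_away h, mem_near, mem_near, mem_away]
  refine ⟨fun he => ⟨he.1.1, he.2⟩, fun he => ⟨⟨he.1, fun v hv => ?_⟩, he.2⟩⟩
  obtain ⟨u, hu, huc⟩ := he.2
  exact not_mem_cl_of_sep h (cl_edge he.1 hu hv huc)

variable [DecidableEq W]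

lemma cl_insert_seed {a x : W} (ha : a ∈ S) (ω : Finset (Sym2 W)) :
    cl S (insert s(a, x) ω) = cl (insert x S) ω := by
  refine subset_antisymm (cl_subset ((Set.subset_insert x S).trans (subset_cl _ _)) ?_) ?_
  · intro y z hy h
    rcases Finset.mem_insert.1 h with h | h
    · refine subset_cl _ _ ?_
      rcases Sym2.eq_iff.1 h with ⟨_, rfl⟩ | ⟨_, rfl⟩
      · exact Set.mem_insert _ _
      · exact Set.mem_insert_of_mem _ ha
    · exact cl_step hy h
  · refine cl_trans (Set.insert_subset ?_ (subset_cl _ _)) (subset_insert _ _)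
    exact cl_step (subset_cl _ _ ha) (mem_insert_self _ _)

lemma clu_insert_seed {a x : W} (ha : a ∈ S) (ω : Finset (Sym2 W)) :
    clu S (insert s(a, x) (clu (insert x S) ω)) = clu S (insert s(a, x) ω) := by
  ext e
  have h1 : cl S (insert s(a, x) (clu (insert x S) ω)) = cl (insert x S) ω := by
    rw [cl_insert_seed ha, cl_clu]
  rw [clu, h1, clu, clu, cl_insert_seed ha]
  simp only [mem_near, Finset.mem_insert]
  tauto

variable {p : Sym2 W → ℝ} {U : Finset (Sym2 W)}

/-- The edges near `V` and those away from it are independent. -/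
lemma ev_indep (V : Set W) (φ ψ : Finset (Sym2 W) → ℝ) :
    ev p U (fun ω => φ (near V ω) * ψ (away V ω)) =
      ev p U (fun ω => φ (near V ω)) * ev p U (fun ω => ψ (away V ω)) := by
  have hd : Disjoint (near V U) (away V U) := disjoint_left.2 fun e h h' => by
    obtain ⟨v, hv, hvV⟩ := (mem_near.1 h).2
    exact (mem_away.1 h').2 v hv hvV
  have hu : near V U ∪ away V U = U := by
    refine subset_antisymm (union_subset (near_subset _ _) (away_subset _ _)) fun e he => ?_
    by_cases h : ∃ v ∈ e, v ∈ V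
    · exact mem_union_left _ (mem_near.2 ⟨he, h⟩)
    · exact mem_union_right _ (mem_away.2 ⟨he, fun v hv hvV => h ⟨v, hv, hvV⟩⟩)
  have hn : ∀ A B, A ⊆ near V U → B ⊆ away V U → near V (A ∪ B) = A ∧ away V (A ∪ B) = B := by
    intro A B hA hB
    constructor <;> ext e
    · refine ⟨fun h => (mem_union.1 (mem_near.1 h).1).resolve_right fun hb => ?_,
        fun h => mem_near.2 ⟨mem_union_left _ h, (mem_near.1 (hA h)).2⟩⟩
      obtain ⟨v, hv, hvV⟩ := (mem_near.1 h).2
      exact (mem_away.1 (hB hb)).2 v hv hvV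
    · refine ⟨fun h => (mem_union.1 (mem_away.1 h).1).resolve_left fun ha => ?_,
        fun h => mem_away.2 ⟨mem_union_right _ h, (mem_away.1 (hB h)).2⟩⟩
      obtain ⟨v, hv, hvV⟩ := (mem_near.1 (hA ha)).2
      exact (mem_away.1 h).2 v hv hvV
  have key : ∀ φ ψ : Finset (Sym2 W) → ℝ, ev p U (fun ω => φ (near V ω) * ψ (away V ω)) =
      ev p (near V U) φ * ev p (away V U) ψ := fun φ ψ => by
    conv_lhs => rw [← hu]
    rw [ev_split hd, mul_comm (ev p (near V U) φ), ← ev_mul_left]
    refine ev_congr fun A hA => ?_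
    rw [mul_comm, ← ev_mul_left]
    exact ev_congr fun B hB => by rw [(hn A B hA hB).1, (hn A B hA hB).2]
  rw [key φ ψ]
  have h1 := key φ fun _ => 1
  have h2 := key (fun _ => 1) ψ
  simp only [mul_one, one_mul, ev_const] at h1 h2
  rw [h1, h2]

/-- Given the cluster, the edges away from it may be sampled afresh. -/
theorem ev_explore (p : Sym2 W → ℝ) (U : Finset (Sym2 W)) (S : Set W)
    (G : Finset (Sym2 W) → Finset (Sym2 W) → ℝ) :
    ev p U (fun ω => G (clu S ω) (away (cl S ω) ω)) =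
      ev p U fun ω => ev p U fun ω' => G (clu S ω) (away (cl S ω) ω') := by
  have key : ∀ F : Finset (Sym2 W) → Finset (Sym2 W) → ℝ, ev p U (fun ω => F (clu S ω) ω) =
      ∑ K ∈ U.powerset, ev p U fun ω => ind (near (cl S K) ω = K) * F K ω := by
    intro F
    rw [← ev_sum]
    refine ev_congr fun ω hω => ?_
    rw [sum_eq_single (clu S ω)]
    · rw [ind_true ((clu_eq_iff S ω _).1 rfl), one_mul]
    · intro K _ hK
      rw [ind_false fun h => hK ((clu_eq_iff S ω K).2 h).symm, zero_mul]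
    · exact fun h => absurd (mem_powerset.2 ((clu_subset S ω).trans hω)) h
  have e1 := key fun K ω => G K (away (cl S K) ω)
  have e2 := key fun K _ => ev p U fun ω' => G K (away (cl S K) ω')
  simp only [cl_clu] at e1 e2
  rw [e1, e2]
  refine sum_congr rfl fun K _ => ?_
  have h := ev_indep (p := p) (U := U) (cl S K) (fun A => ind (A = K)) (G K)
  beta_reduce at h
  rw [h, mul_comm, ← ev_mul_left]
  exact ev_congr fun ω _ => mul_comm _ _

end Vale.Agent.P151.Fin
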