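import Vale.Agent.P151.FiniteCluster

/-!
Association of cluster functions given non-connection: increasing functions of one cluster are
positively correlated, those of two separated clusters negatively (van den Berg, Häggström, Kahn).
-/

open Finset

namespace Vale.Agent.P151.Fin

open P165 (cl subset_cl cl_mono cl_subset)

variable {W : Type*} [DecidableEq W] {p : Sym2 W → ℝ} {U : Finset (Sym2 W)} {S T X : Set W}

omit [DecidableEq W] in
lemma sep_insert_iff (S X : Set W) (x : W) (ω : Finset (Sym2 W)) :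
    Sep (insert x S) X ω ↔ Sep S X ω ∧ Sep {x} X ω := by
  simp only [Sep, Set.insert_eq, cl_union, Set.mem_union]
  exact ⟨fun h => ⟨fun v hv hc => h v hv (.inr hc), fun v hv hc => h v hv (.inl hc)⟩,
    fun h v hv hc => hc.elim (h.2 v hv) (h.1 v hv)⟩

/-- The chance, given the cluster of `S`, that `x` is separated from `X` as well. -/
noncomputable def keep (p : Sym2 W → ℝ) (U : Finset (Sym2 W)) (S X : Set W) (x : W)
    (ω : Finset (Sym2 W)) : ℝ :=
  pr p U fun ω' => x ∈ cl S ω ∨ Sep {x} X (away (cl S ω) ω')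

lemma keep_monotone (h0 : ∀ e, 0 ≤ p e) (h1 : ∀ e, p e ≤ 1) (x : W) :
    Monotone (keep p U S X x) := fun _ _ h => pr_mono h0 h1 fun _ _ hη => hη.imp
  (fun hx => cl_mono subset_rfl h hx)
  (sep_mono subset_rfl subset_rfl (away_mono (cl_mono subset_rfl h) subset_rfl))

lemma keep_clu (x : W) (ω : Finset (Sym2 W)) :
    keep p U S X x (clu S ω) = keep p U S X x ω := by
  rw [keep, keep, cl_clu]

lemma ev_sep_insert (x : W) (φ : Finset (Sym2 W) → ℝ) (hφ : ∀ ω, φ (clu S ω) = φ ω) :
    ev p U (fun ω => ind (Sep (insert x S) X ω) * φ ω) =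
      ev p U fun ω => ind (Sep S X ω) * (φ ω * keep p U S X x ω) := by
  have key := ev_explore p U S fun K η =>
    ind (Sep S X K) * (φ K * ind (x ∈ cl S K ∨ Sep {x} X η))
  simp only [sep_clu, hφ, cl_clu] at key
  refine (ev_congr fun ω _ => ?_).trans (key.trans (ev_congr fun ω _ => ?_))
  · by_cases hD : Sep S X ω
    · rw [ind_true hD, one_mul, mul_comm]
      refine congrArg (φ ω * ·) (ind_congr ?_)
      rw [sep_insert_iff, and_iff_right hD]
      by_cases hx : x ∈ cl S ω
      · refine iff_of_true (fun v hv hc => hD v hv ?_) (.inl hx)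
        exact P165.cl_trans (Set.singleton_subset_iff.2 hx) subset_rfl hc
      · rw [or_iff_right hx, Sep, Sep, cl_away fun v hv => (Set.mem_singleton_iff.1 hv) ▸ hx]
    · rw [ind_false hD, ind_false fun h => hD ((sep_insert_iff S X x ω).1 h).1, zero_mul, zero_mul]
  · rw [ev_mul_left, ev_mul_left]
    rfl

lemma mix_le {t a b Af Ag Afg Bf Bg Bfg : ℝ} (ht0 : 0 ≤ t) (ht1 : t ≤ 1) (hb : 0 ≤ b)
    (hba : b ≤ a) (hA : Af * Ag ≤ Afg * a) (hB : Bf * Bg ≤ Bfg * b) (hf : Af * b ≤ Bf * a)
    (hg : Ag * b ≤ Bg * a) (hz : b = 0 → Bf = 0 ∧ Bg = 0 ∧ Bfg = 0) :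
    (t * Bf + (1 - t) * Af) * (t * Bg + (1 - t) * Ag) ≤
      (t * Bfg + (1 - t) * Afg) * (t * b + (1 - t) * a) := by
  have cross : Bf * Ag + Af * Bg ≤ Bfg * a + Afg * b := by
    rcases hb.eq_or_lt' with h | h
    · obtain ⟨r, s, u⟩ := hz h
      simp [r, s, u, h]
    · have ha := h.trans_le hba
      refine le_of_mul_le_mul_right ?_ (mul_pos ha h)
      have e1 := mul_le_mul_of_nonneg_left hB (sq_nonneg a)
      have e2 := mul_le_mul_of_nonneg_left hA (sq_nonneg b)
      have e3 := mul_nonneg (sub_nonneg.2 hf) (sub_nonneg.2 hg)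
      linarith
  have i1 := mul_le_mul_of_nonneg_left hB (mul_nonneg ht0 ht0)
  have i2 := mul_le_mul_of_nonneg_left hA (mul_nonneg (sub_nonneg.2 ht1) (sub_nonneg.2 ht1))
  have i3 := mul_le_mul_of_nonneg_left cross (mul_nonneg ht0 (sub_nonneg.2 ht1))
  linarith

/-- Increasing functions of the cluster of `S` are positively correlated given that it avoids `X`. -/
theorem ev_sep_mul_ge (h0 : ∀ e, 0 ≤ p e) (h1 : ∀ e, p e ≤ 1) (U : Finset (Sym2 W))
    (S X : Set W) {f g : Finset (Sym2 W) → ℝ} (hf : Monotone f) (hg : Monotone g)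
    (cf : ∀ ω, f (clu S ω) = f ω) (cg : ∀ ω, g (clu S ω) = g ω) :
    ev p U (fun ω => ind (Sep S X ω) * f ω) * ev p U (fun ω => ind (Sep S X ω) * g ω) ≤
      ev p U (fun ω => ind (Sep S X ω) * (f ω * g ω)) * pr p U (Sep S X) := by
  induction U using Finset.strongInduction generalizing S f g with
  | H U ih =>
    by_cases hex : ∃ a x, s(a, x) ∈ U ∧ a ∈ S
    · obtain ⟨a, x, he, ha⟩ := hex
      set e := s(a, x) with he'
      set U' := U.erase e
      have hU : insert e U' = U := insert_erase he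
      have hlt : U' ⊂ U := erase_ssubset he
      have hne : e ∉ U' := notMem_erase e U
      set f' := fun ω => f (insert e ω)
      set g' := fun ω => g (insert e ω)
      have hf' : Monotone f' := fun _ _ h => hf (insert_subset_insert e h)
      have hg' : Monotone g' := fun _ _ h => hg (insert_subset_insert e h)
      have cf' : ∀ ω, f' (clu (insert x S) ω) = f' ω := fun ω => by
        simp only [f']; rw [← cf, he', clu_insert_seed ha, cf]
      have cg' : ∀ ω, g' (clu (insert x S) ω) = g' ω := fun ω => by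
        simp only [g']; rw [← cg, he', clu_insert_seed ha, cg]
      have hsep : ∀ ω, Sep S X (insert e ω) ↔ Sep (insert x S) X ω := fun ω => by
        simp only [Sep, he', cl_insert_seed ha]
      have split : ∀ φ : Finset (Sym2 W) → ℝ, ev p U (fun ω => ind (Sep S X ω) * φ ω) =
          p e * ev p U' (fun ω => ind (Sep (insert x S) X ω) * φ (insert e ω)) +
            (1 - p e) * ev p U' (fun ω => ind (Sep S X ω) * φ ω) := fun φ => by
        conv_lhs => rw [← hU, ev_insert hne]
        simp only [ind_congr (hsep _)]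
      have seed : ∀ φ : Finset (Sym2 W) → ℝ, Monotone φ → (∀ ω, φ (clu S ω) = φ ω) →
          ev p U' (fun ω => ind (Sep S X ω) * φ ω) * pr p U' (Sep (insert x S) X) ≤
            ev p U' (fun ω => ind (Sep (insert x S) X ω) * φ (insert e ω)) *
              pr p U' (Sep S X) := by
        intro φ hφ cφ
        have h := ih U' hlt S hφ (keep_monotone h0 h1 x) cφ (keep_clu x) (g := keep p U' S X x)
        have e1 := ev_sep_insert (p := p) (U := U') (S := S) (X := X) x (fun _ => 1) fun _ => rfl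
        simp only [mul_one, one_mul] at e1
        rw [← ev_sep_insert x φ cφ, ← e1] at h
        refine h.trans (mul_le_mul_of_nonneg_right (ev_mono h0 h1 fun ω _ => ?_)
          (pr_nonneg h0 h1 _))
        exact mul_le_mul_of_nonneg_left (hφ (subset_insert e ω)) (ind_nonneg _)
      have hz : pr p U' (Sep (insert x S) X) = 0 → ∀ φ : Finset (Sym2 W) → ℝ,
          ev p U' (fun ω => ind (Sep (insert x S) X ω) * φ ω) = 0 := ev_eq_zero h0 h1
      have hD : pr p U (Sep S X) =
          p e * pr p U' (Sep (insert x S) X) + (1 - p e) * pr p U' (Sep S X) := by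
        simpa [pr] using split fun _ => 1
      rw [split f, split g, split, hD]
      exact mix_le (h0 e) (h1 e) (pr_nonneg h0 h1 _)
        (pr_mono h0 h1 fun ω _ h => ((sep_insert_iff S X x ω).1 h).1)
        (ih U' hlt S hf hg cf cg) (ih U' hlt (insert x S) hf' hg' cf' cg')
        (seed f hf cf) (seed g hg cg) fun h => ⟨hz h f', hz h g', hz h _⟩
    · have hcl : ∀ ω, ω ⊆ U → cl S ω = S ∧ clu S ω = ∅ := by
        intro ω hω
        have h : cl S ω = S := subset_antisymm
          (cl_subset subset_rfl fun y z hy hyz => absurd ⟨y, z, hω hyz, hy⟩ hex) (subset_cl _ _)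
        refine ⟨h, eq_empty_of_forall_notMem fun e he => ?_⟩
        rw [clu, h, mem_near] at he
        obtain ⟨he, v, hv, hvS⟩ := he
        obtain ⟨z, rfl⟩ := hv
        exact hex ⟨v, z, hω he, hvS⟩
      set c := ind (Sep S X ∅) with hc
      have hD : ∀ ω, ω ⊆ U → ind (Sep S X ω) = c := fun ω hω =>
        ind_congr (by rw [← sep_clu S X ω, (hcl ω hω).2])
      have key : ∀ φ : Finset (Sym2 W) → ℝ, (∀ ω, φ (clu S ω) = φ ω) →
          ev p U (fun ω => ind (Sep S X ω) * φ ω) = c * φ ∅ := fun φ cφ =>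
        (ev_congr fun ω hω => by rw [hD ω hω, ← cφ ω, (hcl ω hω).2]).trans (ev_const _)
      rw [key f cf, key g cg, key _ (fun ω => by rw [cf, cg]), pr, ev_congr hD, ev_const]
      linarith

/-- Enlarging the seed set raises the conditional mean of an increasing cluster function. -/
theorem ev_sep_seed (h0 : ∀ e, 0 ≤ p e) (h1 : ∀ e, p e ≤ 1) (U : Finset (Sym2 W))
    (S X : Set W) (x : W) {f : Finset (Sym2 W) → ℝ} (hf : Monotone f)
    (cf : ∀ ω, f (clu S ω) = f ω) :
    ev p U (fun ω => ind (Sep S X ω) * f ω) * pr p U (Sep (insert x S) X) ≤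
      ev p U (fun ω => ind (Sep (insert x S) X ω) * f ω) * pr p U (Sep S X) := by
  have h := ev_sep_mul_ge h0 h1 U S X hf (keep_monotone (U := U) h0 h1 x) cf (keep_clu x)
    (g := keep p U S X x)
  have e1 := ev_sep_insert (p := p) (U := U) (S := S) (X := X) x (fun _ => 1) fun _ => rfl
  simp only [mul_one, one_mul] at e1
  rwa [← ev_sep_insert x f cf, ← e1] at h

/-- Increasing functions of two separated clusters are negatively correlated. -/
theorem ev_sep_mul_le (h0 : ∀ e, 0 ≤ p e) (h1 : ∀ e, p e ≤ 1) (U : Finset (Sym2 W))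
    (S X : Set W) (hT : T ⊆ X) {f g : Finset (Sym2 W) → ℝ} (hf : Monotone f) (hg : Monotone g)
    (cf : ∀ ω, f (clu S ω) = f ω) (cg : ∀ ω, g (clu T ω) = g ω) :
    ev p U (fun ω => ind (Sep S X ω) * (f ω * g ω)) * pr p U (Sep S X) ≤
      ev p U (fun ω => ind (Sep S X ω) * f ω) * ev p U (fun ω => ind (Sep S X ω) * g ω) := by
  set G := fun ω => -ev p U fun η => g (away (cl S ω) η) with hG
  have mG : Monotone G := fun ω ω' h => neg_le_neg
    (ev_mono h0 h1 fun η _ => hg (away_mono (cl_mono subset_rfl h) subset_rfl))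
  have cG : ∀ ω, G (clu S ω) = G ω := fun ω => by simp only [hG, cl_clu]
  have key : ∀ φ : Finset (Sym2 W) → ℝ, (∀ ω, φ (clu S ω) = φ ω) →
      ev p U (fun ω => ind (Sep S X ω) * (φ ω * g ω)) =
        -ev p U fun ω => ind (Sep S X ω) * (φ ω * G ω) := by
    intro φ cφ
    have k := ev_explore p U S fun K η => ind (Sep S X K) * (φ K * g η)
    simp only [sep_clu, cφ] at k
    rw [← ev_neg]
    refine (ev_congr fun ω _ => ?_).trans (k.trans (ev_congr fun ω _ => ?_))
    · by_cases hD : Sep S X ω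
      · rw [← cg (away _ _), clu_away (sep_mono subset_rfl hT subset_rfl hD), cg]
      · rw [ind_false hD, zero_mul, zero_mul]
    · simp only [ev_mul_left, hG, mul_neg, neg_neg]
  have h := ev_sep_mul_ge h0 h1 U S X hf mG cf cG
  have k1 := key (fun _ => 1) fun _ => rfl
  simp only [one_mul] at k1
  rw [key f cf, k1]
  linarith

/-- Event form of the same-side inequality. -/
theorem pr_sep_and_ge (h0 : ∀ e, 0 ≤ p e) (h1 : ∀ e, p e ≤ 1) (U : Finset (Sym2 W))
    (S X : Set W) {A B : Finset (Sym2 W) → Prop} (hA : ∀ ω η, ω ⊆ η → A ω → A η)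
    (hB : ∀ ω η, ω ⊆ η → B ω → B η) (cA : ∀ ω, A (clu S ω) ↔ A ω)
    (cB : ∀ ω, B (clu S ω) ↔ B ω) :
    pr p U (fun ω => Sep S X ω ∧ A ω) * pr p U (fun ω => Sep S X ω ∧ B ω) ≤
      pr p U (fun ω => Sep S X ω ∧ A ω ∧ B ω) * pr p U (Sep S X) := by
  have h := ev_sep_mul_ge h0 h1 U S X (fun ω η h => ind_mono (hA ω η h))
    (fun ω η h => ind_mono (hB ω η h)) (fun ω => ind_congr (cA ω)) fun ω => ind_congr (cB ω)
  simp only [← ind_and] at h
  exact h

/-- Event form of the van den Berg, Häggström, Kahn inequality. -/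
theorem pr_sep_and_le (h0 : ∀ e, 0 ≤ p e) (h1 : ∀ e, p e ≤ 1) (U : Finset (Sym2 W))
    (S X : Set W) (hT : T ⊆ X) {A B : Finset (Sym2 W) → Prop}
    (hA : ∀ ω η, ω ⊆ η → A ω → A η) (hB : ∀ ω η, ω ⊆ η → B ω → B η)
    (cA : ∀ ω, A (clu S ω) ↔ A ω) (cB : ∀ ω, B (clu T ω) ↔ B ω) :
    pr p U (fun ω => Sep S X ω ∧ A ω ∧ B ω) * pr p U (Sep S X) ≤
      pr p U (fun ω => Sep S X ω ∧ A ω) * pr p U (fun ω => Sep S X ω ∧ B ω) := by
  have h := ev_sep_mul_le h0 h1 U S X hT (fun ω η h => ind_mono (hA ω η h))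
    (fun ω η h => ind_mono (hB ω η h)) (fun ω => ind_congr (cA ω)) fun ω => ind_congr (cB ω)
  simp only [← ind_and] at h
  exact h

omit [DecidableEq W] in
/-- Connection to `v` depends only on the cluster. -/
lemma mem_cl_clu (S : Set W) (v : W) (ω : Finset (Sym2 W)) :
    v ∈ cl S (clu S ω) ↔ v ∈ cl S ω := by
  rw [cl_clu]

end Vale.Agent.P151.Fin
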